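import Vale.Agent.P297Z.Cp.Fixd
import Vale.Agent.P297Z.Hb.Tower
import Vale.Agent.P297Z.Sh.Main
import Vale.Agent.P297Z.Ev.Fin
import Vale.Agent.P297Z.Diag.Dia
import Vale.Agent.P297Z.Loc.Fin
import Vale.Agent.P297Z.Top.Stage2
import Vale.Agent.P297Z.Tau.Fin
import Vale.Agent.P297Z.Surf.Asm2
import Vale.Agent.P297Z.Surf.SspB2
import Vale.Agent.P297Z.Surf.Rul

/-! P297: the assembly. -/

namespace Vale.Agent.P297Z

theorem Sf.mod : Sf.MOD := Sf.mod_of Vale.Agent.P297Z.loc (Sf.fixd_of Sf.tower Dg.drk) Dg.drk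

theorem blochAll : BlochAll :=
  Sf.bloch_of_STAGE1 (Sf.stage2 Sf.mod Sf.shape Sf.van_loci Sf.ev Sf.kill Sf.tau Sf.Sl.pts
    fun _ _ _ S => S.rul)

theorem bloch : Bloch := blochAll.bloch

end Vale.Agent.P297Z
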