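import Vale.Agent.P299.S.Defs
import Vale.Agent.P297.Defs

/-!
# Surfaces of general type with `p_g = q = 0`
-/

namespace Vale.Agent.P297Z

open Vale.Agent.P299.S Vale.Agent.P297

/-- `H^1(X, O_X) = 0`, where `O_X` is the sheaf whose sections over a nonempty open set `U` are the
rational functions regular at all points of `U`. -/
def IrregularityZero (X : PVar) : Prop :=
  ∀ F : Shf (Sp X.X), IsSheafOf (T := Sp X.X) (fun x f => Reg (X := X) f x) F → VanH F 1

/-- The divisor `D` is big: a positive multiple of `D` is linearly equivalent to the sum of an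
ample divisor and of an effective divisor. -/
def IsBig {X : PVar} (D : Div X) : Prop :=
  ∃ (A : Div X) (k : ℕ), IsAmple A ∧ 0 < k ∧ HasSec (k • D - A)

/-- Bloch's conjecture for the surfaces of general type with `p_g = q = 0`. -/
def Bloch : Prop :=
  ∀ (X : Var) (κ : Div X.toPVar), dim X.toPVar = 2 → IsCanonical κ → IsBig κ → ¬ HasSec κ →
    IrregularityZero X.toPVar → ∀ x y : ClosedPt X.X, RatEquiv X.str x y

end Vale.Agent.P297Z
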